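import Vale.Agent.P269.G1I.T.H246_One
import Vale.Agent.P269.G1I.T.H246_Wt
import Vale.Agent.P269.G1I.T.H276_Pow
import Vale.Agent.P269.G1I.T.H598_Killed
import Vale.Agent.P269.G1I.T.H598_Ode
import Vale.Agent.P269.G1I.T.H598_OmPoly
import Vale.Agent.P269.G1I.T.H598_Ser
import Vale.Agent.P269.G1I.T.H598_VirSmall
import Vale.Agent.P269.G1I.T.H654_Getzler
import Vale.Agent.P269.G1I.T.H660_Closure
import Vale.Agent.P269.G1I.T.H660_Key
import Vale.Agent.P269.G1I.T.H819_Q45
import Vale.Agent.P269.G1I.Conc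

/-!
# [F]: `de n = 0`
-/

set_option autoImplicit false

namespace Vale.Agent.P269.G1.H984

open Finset.HasAntidiagonal (antidiagonal)
open Vale.Agent.P269.CI
open Polynomial (aeval)

section gen

variable {R A O : Type*} [CommRing R] [Algebra ℚ R] [CommRing A] [Algebra R A]
    [Ring O] [Algebra R O]

omit [Algebra ℚ R] in
/-- A linear form kills the multiples of `P(E)`. -/
theorem sum_lin (T : A →ₗ[R] R) (P : Polynomial R) (E : A) (hP : aeval E P = 0) (j : ℕ) :
    P.sum (fun n c => c * T (E ^ (n + j))) = 0 := by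
  have h1 : T (aeval E P * E ^ j) = 0 := by rw [hP, zero_mul, map_zero]
  rw [Polynomial.aeval_def, Polynomial.eval₂_eq_sum, Polynomial.sum_def, Finset.sum_mul,
    map_sum] at h1
  rw [Polynomial.sum_def, ← h1]
  refine Finset.sum_congr rfl fun n _ => ?_
  rw [pow_add, ← Algebra.smul_def, smul_mul_assoc, map_smul, smul_eq_mul]

variable (S : Frob R A O)

/-- the derivative of a fixed function, as a linear form in the vector field -/
def derL (f : R) : A →ₗ[R] R where
  toFun x := S.der x f
  map_add' x y := S.der_add_left x y f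
  map_smul' g x := by rw [S.der_smul_left, RingHom.id_apply, smul_eq_mul]

theorem derL_apply (f : R) (x : A) : derL S f x = S.der x f := rfl

theorem om_zero : S.om 0 = 0 := by
  simp [Frob.om]

theorem de_zero0 : S.de 0 = 0 := by
  rw [Frob.de, om_zero, pow_zero, S.G_one, sub_zero]

theorem key' (hG : S.Getzler) (h1 : S.de 1 = 0) (hω : ∀ x, S.der x (S.om 1) = 0) (n : ℕ) :
    (n : R) * S.der (S.E ^ (n - 1)) (S.de 2) = 2 * S.de n := by
  cases n with
  | zero => rw [de_zero0, Nat.cast_zero, zero_mul, mul_zero]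
  | succ s =>
    have := S.key hG h1 hω s
    rw [Nat.add_sub_cancel]
    push_cast
    exact this

/-- `P.sum c_n de_{n+j} = 0`. -/
theorem de_poly (P : Polynomial R) (hP : aeval S.E P = 0)
    (hΛ : P.sum (fun n c => c • S.psi n) = 0) (hφ : P.sum (fun n c => c • S.phi n) = 0) (j : ℕ) :
    P.sum (fun n c => c * S.de (n + j)) = 0 := by
  have h1 := S.om_poly P hP hΛ hφ j
  have h2 := sum_lin S.G P S.E hP j
  rw [Polynomial.sum_def] at h1 h2 ⊢
  have h3 : ∑ n ∈ P.support, P.coeff n * S.de (n + j) =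
      ∑ n ∈ P.support, P.coeff n * S.G (S.E ^ (n + j)) -
        ∑ n ∈ P.support, P.coeff n * S.om (n + j) := by
    rw [← Finset.sum_sub_distrib]
    exact Finset.sum_congr rfl fun n _ => by rw [Frob.de, mul_sub]
  rw [h3, h1, h2, sub_zero]

/-- `P.sum c_n (n + j) a_{n+j-1} = 0`. -/
theorem a_poly1 (hG : S.Getzler) (h1 : S.de 1 = 0) (hω : ∀ x, S.der x (S.om 1) = 0)
    (P : Polynomial R) (hP : aeval S.E P = 0)
    (hΛ : P.sum (fun n c => c • S.psi n) = 0) (hφ : P.sum (fun n c => c • S.phi n) = 0) (j : ℕ) :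
    P.sum (fun n c => c * (((n + j : ℕ) : R) * S.der (S.E ^ (n + j - 1)) (S.de 2))) = 0 := by
  have h2 := de_poly S P hP hΛ hφ j
  rw [Polynomial.sum_def] at h2 ⊢
  calc _ = 2 * ∑ n ∈ P.support, P.coeff n * S.de (n + j) := by
        rw [Finset.mul_sum]
        refine Finset.sum_congr rfl fun n _ => ?_
        rw [key' S hG h1 hω (n + j)]
        ring
    _ = 0 := by rw [h2, mul_zero]

/-- `P.sum c_n n a_{n-1+j} = 0`. -/
theorem a_poly2 (hG : S.Getzler) (h1 : S.de 1 = 0) (hω : ∀ x, S.der x (S.om 1) = 0)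
    (P : Polynomial R) (hP : aeval S.E P = 0)
    (hΛ : P.sum (fun n c => c • S.psi n) = 0) (hφ : P.sum (fun n c => c • S.phi n) = 0) (j : ℕ) :
    P.sum (fun n c => c * ((n : R) * S.der (S.E ^ (n - 1 + j)) (S.de 2))) = 0 := by
  cases j with
  | zero =>
    have := a_poly1 S hG h1 hω P hP hΛ hφ 0
    simpa using this
  | succ j =>
    have e1 := a_poly1 S hG h1 hω P hP hΛ hφ (j + 1)
    have e2 := sum_lin (derL S (S.de 2)) P S.E hP j
    rw [Polynomial.sum_def] at e1 e2 ⊢
    have e3 : ∑ n ∈ P.support, P.coeff n *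
          (((n + (j + 1) : ℕ) : R) * S.der (S.E ^ (n + (j + 1) - 1)) (S.de 2)) =
        ∑ n ∈ P.support, P.coeff n * ((n : R) * S.der (S.E ^ (n - 1 + (j + 1))) (S.de 2)) +
          ((j + 1 : ℕ) : R) * ∑ n ∈ P.support, P.coeff n * derL S (S.de 2) (S.E ^ (n + j)) := by
      rw [Finset.mul_sum, ← Finset.sum_add_distrib]
      refine Finset.sum_congr rfl fun n _ => ?_
      rw [derL_apply, show n + (j + 1) - 1 = n + j by omega]
      rcases Nat.eq_zero_or_pos n with h0 | h0
      · subst h0
        push_cast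
        ring
      · rw [show n - 1 + (j + 1) = n + j by omega]
        push_cast
        ring
    rw [e1, e2, mul_zero, add_zero] at e3
    exact e3.symm

end gen

section spec

variable {X : CompleteIntersection} {F : ℕ → ℕ → List (Ins X) → ℂ}

variable (hF : IsGW X F) (h1 : IsGenusOne F)

theorem cq_ne_zero (hi : index X ≠ 0) : cq X ≠ 0 := by
  unfold cq
  refine mul_ne_zero (pow_ne_zero _ (by exact_mod_cast hi)) ?_
  apply List.prod_ne_zero
  intro h
  rw [List.mem_map] at h
  obtain ⟨d, -, hd⟩ := h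
  first
  | (rw [Complex.cpow_eq_zero_iff] at hd
     exact hd.2 hd.1)
  | (rcases Nat.eq_zero_or_pos d with h0 | h0
     · subst h0
       simp at hd
     · exact absurd hd (pow_ne_zero _ (by exact_mod_cast h0.ne')))

/-- the value at the origin of `a_p` -/
noncomputable def b0 (p : ℕ) : PowerSeries ℂ :=
  MvPowerSeries.constantCoeff ((frob hF h1).der ((frob hF h1).E ^ p) ((frob hF h1).de 2))

theorem natCast_inj_ps {n : ℕ} (hn : n ≠ 0) (a : PowerSeries ℂ) (h : (n : PowerSeries ℂ) * a = 0) :
    a = 0 := by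
  rcases mul_eq_zero.mp h with h | h
  · have h2 := congrArg PowerSeries.constantCoeff h
    rw [map_natCast, map_zero] at h2
    exact absurd (by exact_mod_cast h2) hn
  · exact h

theorem key0 (hX : 3 ≤ X.dim) (n : ℕ) :
    ((n + 1 : ℕ) : PowerSeries ℂ) * b0 hF h1 n =
      2 * MvPowerSeries.constantCoeff ((frob hF h1).de (n + 1)) := by
  have h := key' (frob hF h1) (frob_getzler hF h1) (frob_de_one hF h1 hX)
    (frob_om_one hF h1) (n + 1)
  rw [Nat.add_sub_cancel] at h
  have h2 := congrArg MvPowerSeries.constantCoeff h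
  rw [map_mul, map_mul, map_natCast, map_ofNat] at h2
  exact h2

theorem b0_zero (hX : 3 ≤ X.dim) : b0 hF h1 0 = 0 := by
  refine natCast_inj_ps (n := 0 + 1) (by norm_num) _ ?_
  rw [key0 hF h1 hX, frob_de_one hF h1 hX, map_zero, mul_zero]

theorem b0_small (hX : 3 ≤ X.dim) (hX2 : 2 * excess X ≤ X.dim + 2) (p : ℕ)
    (hp0 : 0 < p) (hp : p < X.dim + 1 - excess X) : b0 hF h1 p = 0 := by
  refine natCast_inj_ps (n := p + 1) (by omega) _ ?_
  have h2 : MvPowerSeries.constantCoeff ((frob hF h1).de (p + 1)) = 0 := by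
    have h3 := congrArg MvPowerSeries.constantCoeff (vir_small hF h1 p)
    rw [map_neg] at h3
    rw [← neg_eq_zero, ← h3, ser, constantCoeff_toSer]
    ext d
    rw [PowerSeries.coeff_mk, map_zero]
    apply vir_weight hF
    rw [index_eq]
    intro h
    have h4 : ((X.dim : ℤ) + 1 - excess X) = ((X.dim + 1 - excess X : ℕ) : ℤ) := by
      rw [Nat.cast_sub (by omega)]
      push_cast
      ring
    rw [h4] at h
    have h5 : (X.dim + 1 - excess X) * d = p := by exact_mod_cast h
    rcases Nat.eq_zero_or_pos d with h0 | h0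
    · subst h0; omega
    · have := Nat.le_mul_of_pos_right (X.dim + 1 - excess X) h0
      omega
  rw [key0 hF h1 hX, h2, mul_zero]

theorem two_le_index (hX : 3 ≤ X.dim) (hX2 : 2 * excess X ≤ X.dim + 2) : 2 ≤ index X := by
  rw [index_eq]
  omega

theorem b0_all (hX : 3 ≤ X.dim) (hm : 2 ≤ excess X) (hX2 : 2 * excess X ≤ X.dim + 2) (p : ℕ) :
    b0 hF h1 p = 0 := by
  have hi : 2 ≤ index X := two_le_index hX hX2
  have hi0 : index X ≠ 0 := by omega
  obtain ⟨P, hmon, hdeg, hPE, hP0⟩ := exists_poly hF h1 hi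
  have hΛ := psi_zero hF h1 hi0 P hmon hdeg hPE
  have hφ := phi_zero hF h1 hi0 P hPE
  have hG := frob_getzler hF h1
  have hd1 := frob_de_one hF h1 hX
  have ho1 := frob_om_one hF h1
  have hlead : P.coeff (X.dim + 1) = 1 := by
    have h := hmon.coeff_natDegree
    rwa [hdeg] at h
  -- a general evaluation of sums at the origin
  have hev : ∀ g : ℕ → RR X,
      MvPowerSeries.constantCoeff (P.sum fun n c => c * g n) =
        MvPowerSeries.constantCoeff (g (X.dim + 1)) -
          PowerSeries.C (cq X) * PowerSeries.X * MvPowerSeries.constantCoeff (g (excess X)) := by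
    intro g
    rw [Polynomial.sum_over_range _ (fun n => zero_mul _), hdeg, Finset.sum_range_succ, map_add,
      map_mul, hlead, map_one, one_mul, map_sum]
    have h2 : ∀ i ∈ Finset.range (X.dim + 1),
        MvPowerSeries.constantCoeff (P.coeff i * g i) =
          if i = excess X then - (PowerSeries.C (cq X) * PowerSeries.X) *
            MvPowerSeries.constantCoeff (g (excess X)) else 0 := by
      intro i hir
      rw [map_mul, hP0 i (Finset.mem_range.mp hir)]
      split_ifs with h
      · rw [h]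
      · rw [zero_mul]
    rw [Finset.sum_congr rfl h2, Finset.sum_ite_eq' (Finset.range (X.dim + 1)) (excess X),
      if_pos (Finset.mem_range.mpr (by omega))]
    ring
  have hsum : X.dim + 1 = excess X + (X.dim + 1 - excess X) := by omega
  have hkill := killed (m := excess X) (ν := X.dim + 1 - excess X) (by omega) (by omega) (cq X)
    (cq_ne_zero hi0) (b0 hF h1) ?_ ?_
  · rcases Nat.lt_or_ge p (excess X - 1) with hp | hp
    · rcases Nat.eq_zero_or_pos p with h0 | h0
      · rw [h0]; exact b0_zero hF h1 hX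
      · exact b0_small hF h1 hX hX2 p h0 (by omega)
    · exact hkill p hp
  · intro j
    have h := congrArg MvPowerSeries.constantCoeff
      (sum_lin (derL (frob hF h1) ((frob hF h1).de 2)) P (frob hF h1).E hPE j)
    rw [hev fun n => derL (frob hF h1) ((frob hF h1).de 2) ((frob hF h1).E ^ (n + j)),
      map_zero, sub_eq_zero] at h
    rw [← hsum]
    exact h
  · intro j
    have h := congrArg MvPowerSeries.constantCoeff
      (a_poly2 (frob hF h1) hG hd1 ho1 P hPE hΛ hφ j)
    rw [hev fun n => (n : RR X) *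
      (frob hF h1).der ((frob hF h1).E ^ (n - 1 + j)) ((frob hF h1).de 2),
      map_zero, sub_eq_zero, map_mul, map_mul, map_natCast, map_natCast] at h
    rw [← hsum]
    have h' : ((X.dim + 1 : ℕ) : PowerSeries ℂ) * b0 hF h1 (X.dim + 1 - 1 + j) =
        PowerSeries.C (cq X) * PowerSeries.X * ((excess X : PowerSeries ℂ) *
          b0 hF h1 (excess X - 1 + j)) := h
    rw [h']
    ring

/-- **[F]** -/
theorem de_zero (hX : 3 ≤ X.dim) (hm : 2 ≤ excess X) (hX2 : 2 * excess X ≤ X.dim + 2) (n : ℕ) :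
    (frob hF h1).de n = 0 := by
  have hi : 2 ≤ index X := two_le_index hX hX2
  have hi0 : index X ≠ 0 := by omega
  have hG := frob_getzler hF h1
  have hd1 := frob_de_one hF h1 hX
  have ho1 := frob_om_one hF h1
  obtain ⟨b, hb⟩ := pow_basis hF h1 hi0
  set D := derL (frob hF h1) ((frob hF h1).de 2) with hD
  have hE : (frob hF h1).E = Eu hF h1 := rfl
  have hexp : ∀ x : AA hF h1, D x = ∑ q : Fin (X.dim + 1), b.repr x q * D (Eu hF h1 ^ (q : ℕ)) := by
    intro x
    conv_lhs => rw [← b.sum_repr x]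
    rw [map_sum]
    refine Finset.sum_congr rfl fun q _ => ?_
    rw [map_smul, smul_eq_mul, hb]
  have hcl : ∀ m' n' : ℕ, (frob hF h1).der (Eu hF h1 ^ m') (D (Eu hF h1 ^ n')) =
      (n' : RR X) * D (Eu hF h1 ^ (m' + n' - 1)) := fun m' n' =>
    (frob hF h1).closure hG hd1 ho1 m' n'
  have hder : ∀ (x : AA hF h1) (n' : ℕ), (frob hF h1).der x (D (Eu hF h1 ^ n')) =
      ∑ k : Fin (X.dim + 1), b.repr x k * ((n' : RR X) * D (Eu hF h1 ^ ((k : ℕ) + n' - 1))) := by
    intro x n'
    have h2 : (frob hF h1).der x (D (Eu hF h1 ^ n')) =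
        derL (frob hF h1) (D (Eu hF h1 ^ n')) x := rfl
    rw [h2]
    conv_lhs => rw [← b.sum_repr x]
    rw [map_sum]
    refine Finset.sum_congr rfl fun k _ => ?_
    rw [map_smul, smul_eq_mul, hb, derL_apply, hcl]
  have hpd : ∀ (i : Fin (X.dim + 1)) (f : RR X),
      MvPowerSeries.pderiv (PowerSeries ℂ) i f =
        (frob hF h1).der (QA.bas (consts hF h1) i) f := by
    intro i f
    have h2 : (frob hF h1).der (QA.bas (consts hF h1) i) f =
        ∑ k, (QA.bas (consts hF h1) i : AA hF h1) k *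
          MvPowerSeries.pderiv (PowerSeries ℂ) k f := rfl
    rw [h2, Finset.sum_eq_single i]
    · rw [QA.bas_apply, if_pos rfl, one_mul]
    · intro k _ hk
      rw [QA.bas_apply, if_neg hk, zero_mul]
    · intro h; exact absurd (Finset.mem_univ i) h
  have hode := ode_zero (n := X.dim + 1) (K := PowerSeries ℂ) (N := X.dim + 1)
    (fun p => D (Eu hF h1 ^ (p : ℕ))) (fun p => b0_all hF h1 hX hm hX2 p)
    (fun i p q => ∑ k : Fin (X.dim + 1), b.repr (QA.bas (consts hF h1) i) k *
      (((p : ℕ) : RR X) * b.repr (Eu hF h1 ^ ((k : ℕ) + p - 1)) q)) (by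
      intro i p
      rw [hpd, hder]
      simp only [Finset.sum_mul]
      rw [Finset.sum_comm]
      refine Finset.sum_congr rfl fun k _ => ?_
      rw [hexp (Eu hF h1 ^ ((k : ℕ) + p - 1)), Finset.mul_sum, Finset.mul_sum]
      exact Finset.sum_congr rfl fun q _ => by ring)
  have hDzero : ∀ x : AA hF h1, D x = 0 := by
    intro x
    rw [hexp x]
    exact Finset.sum_eq_zero fun q _ => by rw [hode q, mul_zero]
  cases n with
  | zero => exact de_zero0 _
  | succ s =>
    have h2 := key' (frob hF h1) hG hd1 ho1 (s + 1)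
    rw [Nat.add_sub_cancel] at h2
    have h3 : (frob hF h1).der ((frob hF h1).E ^ s) ((frob hF h1).de 2) = 0 := hDzero _
    rw [h3, mul_zero] at h2
    have h4 : (2 : ℚ) • (frob hF h1).de (s + 1) = 0 := by
      rw [Algebra.smul_def, map_ofNat, ← h2]
    have h5 := congrArg (fun x => (1 / 2 : ℚ) • x) h4
    simp only [smul_smul, smul_zero] at h5
    norm_num at h5
    exact h5

end spec

end Vale.Agent.P269.G1.H984
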