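import Vale.Agent.P269.G1I.T.H521_SrB
import Vale.Agent.P269.G1I.BSpec
import Vale.Agent.P269.G1I.H980.SerVir

/-!
# [DB4a] grading and divisor equation on the big phase space
-/

namespace Vale.Agent.P269.G1.H984

open Finset.HasAntidiagonal (antidiagonal)
open Vale.Agent.P269.CI Vale.Agent.P269.G1

variable {X : CompleteIntersection} {n : ℕ} (E : Fam X n) {F : ℕ → ℕ → List (Ins X) → ℂ}

/-! ### series of the family -/

theorem sr_congr {A B : ℕ → List (Ins X) → ℂ}
    (h : ∀ d (L : List (Fin n)), A d (L.map E.ins) = B d (L.map E.ins)) : sr E A = sr E B := by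
  unfold sr
  congr 1
  funext L
  ext d
  simpa using h d L

theorem sr_add (A B : ℕ → List (Ins X) → ℂ) :
    sr E (fun d L => A d L + B d L) = sr E A + sr E B := by
  unfold sr
  rw [← H598.toSer_add']
  congr 1

theorem sr_zero : sr E (fun _ _ => 0) = 0 := by
  funext α
  change ((∏ i, (α i).factorial : ℕ) : ℚ)⁻¹ • (PowerSeries.mk fun _ => (0 : ℂ)) = 0
  have : (PowerSeries.mk fun _ => (0 : ℂ)) = 0 := by
    ext; simp
  rw [this, smul_zero]

theorem smul_RB (c : ℂ) (f : RB n) : c • f = cb n c * f := by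
  ext n m
  rw [cb, MvPowerSeries.coeff_C_mul, PowerSeries.coeff_C_mul]
  rfl

theorem sr_smul (c : ℂ) (A : ℕ → List (Ins X) → ℂ) :
    sr E (fun d L => c * A d L) = c • sr E A := by
  funext α
  change ((∏ i, (α i).factorial : ℕ) : ℚ)⁻¹ • (PowerSeries.mk fun d => c * A d _) =
    c • (((∏ i, (α i).factorial : ℕ) : ℚ)⁻¹ • (PowerSeries.mk fun d => A d _))
  rw [smul_comm]
  congr 1

theorem sr_sum {σ : Type*} (s : Finset σ) (A : σ → ℕ → List (Ins X) → ℂ) :
    sr E (fun d L => ∑ x ∈ s, A x d L) = ∑ x ∈ s, sr E (A x) := by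
  classical
  induction s using Finset.induction_on with
  | empty => simpa using sr_zero E
  | insert a s ha ih =>
    rw [Finset.sum_insert ha, ← ih, ← sr_add]
    exact sr_congr E fun d L => Finset.sum_insert ha

theorem sr_const (c : ℂ) :
    sr E (fun d L => if d = 0 ∧ L = [] then c else 0) = cb n c := by
  unfold cb
  ext α m
  change (PowerSeries.coeff m) ((((∏ i, (α i).factorial : ℕ) : ℚ)⁻¹ •
    (PowerSeries.mk fun d => if d = 0 ∧ (lst α).map E.ins = [] then c else 0) :
      PowerSeries ℂ)) = _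
  rw [MvPowerSeries.coeff_C]
  by_cases hα : α = 0
  · subst hα
    rw [if_pos rfl, H598.lst_zero]
    simp [PowerSeries.coeff_C]
  · rw [if_neg hα]
    have : lst α ≠ [] := by
      intro h
      apply hα
      ext j
      have := H598.count_lst α j
      rw [h] at this
      simpa using this.symm
    simp [this]

theorem cb_add (a b : ℂ) : cb n (a + b) = cb n a + cb n b := by
  unfold cb; rw [map_add, map_add]

theorem cb_mul (a b : ℂ) : cb n (a * b) = cb n a * cb n b := by
  unfold cb; rw [map_mul, map_mul]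

theorem cb_zero : cb n 0 = 0 := by
  unfold cb; rw [map_zero, map_zero]

theorem cb_one : cb n 1 = 1 := by
  unfold cb; rw [map_one, map_one]

theorem cb_sum {σ : Type*} (s : Finset σ) (f : σ → ℂ) : cb n (∑ x ∈ s, f x) = ∑ x ∈ s, cb n (f x) := by
  unfold cb; rw [map_sum, map_sum]

theorem ins_amb (L : List (Fin n)) : ∀ x ∈ L.map E.ins, IsAmb X x := by
  intro x hx
  obtain ⟨j, _, rfl⟩ := List.mem_map.1 hx
  exact ⟨_, rfl⟩

theorem par_amb {x : Ins X} (h : IsAmb X x) : par X x.1 = false := by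
  obtain ⟨j, hj⟩ := h
  rw [hj]; rfl

/-! ### topological recursion -/

theorem trr_sr (hF : IsGW X F) (a : Ix X) (m : ℕ) (x y : Ins X) :
    sr E (cor F 0 [(a, m + 1), x, y]) = ∑ α, ∑ β, pairingInv X α β •
      (sr E (cor F 0 [(β, 0), x, y]) * sr E (cor F 0 [(a, m), (α, 0)])) := by
  have h1 : ∀ α β, pairingInv X α β •
      (sr E (cor F 0 [(β, 0), x, y]) * sr E (cor F 0 [(a, m), (α, 0)])) =
      sr E (fun d L => pairingInv X α β *
        mulS (cor F 0 [(β, 0), x, y]) (cor F 0 [(a, m), (α, 0)]) d L) := by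
    intro α β
    rw [← sr_mulS E _ _ (symF_cor E hF 0 _) (symF_cor E hF 0 _), sr_smul]
  simp only [h1]
  simp only [← sr_sum]
  refine sr_congr E fun d L => ?_
  exact hF.trr d a m x y (L.map E.ins)

/-- a single primitive insertion gives zero -/
theorem sr_prim (h1 : IsGenusOne F) (g : ℕ) (v : X.Prim) (m : ℕ) (P : List (Ins X))
    (hP : ∀ x ∈ P, IsAmb X x) : sr E (cor F g ((Sum.inr v, m) :: P)) = 0 := by
  rw [← sr_zero E]
  refine sr_congr E fun d L => ?_
  refine h1.mono1 g d v m (P ++ L.map E.ins) ?_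
  intro x hx
  rcases List.mem_append.1 hx with h | h
  · exact hP x h
  · exact ins_amb E L x h

/-- moving an even insertion -/
theorem sr_move (hF : IsGW X F) (g : ℕ) (x : Ins X) (hx : par X x.1 = false)
    (P Q : List (Ins X)) : sr E (cor F g (P ++ x :: Q)) = sr E (cor F g (x :: (P ++ Q))) := by
  refine sr_congr E fun d L => ?_
  have h := H598.move_even hF g d x hx P [] (Q ++ L.map E.ins)
  simpa [cor] using h

theorem sr_mixed (hF : IsGW X F) (h1 : IsGenusOne F) (a : Fin (X.dim + 1)) (v : X.Prim)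
    (m k : ℕ) : sr E (cor F 0 [(Sum.inl a, m), (Sum.inr v, k)]) = 0 := by
  have e1 : sr E (cor F 0 [(Sum.inl a, m), (Sum.inr v, k)]) =
      sr E (cor F 0 [(Sum.inr v, k), (Sum.inl a, m)]) :=
    (sr_move E hF 0 (Sum.inl a, m) rfl [(Sum.inr v, k)] []).symm
  rw [e1]
  refine sr_prim E h1 0 v k _ ?_
  intro x hx
  rcases List.mem_cons.1 hx with h | h
  · exact ⟨a, by rw [h]⟩
  · simp at h

theorem SB_succ (h1 : IsGenusOne F) (m : ℕ) (c b : Fin (X.dim + 1)) :
    (SB E h1 (m + 1)).1 c b = ∑ a : Fin (X.dim + 1),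
      pairingInv X (Sum.inl a) (Sum.inl c) •
        sr E (cor F 0 [(Sum.inl b, m), (Sum.inl a, 0)]) := rfl

theorem SB_zero (h1 : IsGenusOne F) (c b : Fin (X.dim + 1)) :
    (SB E h1 0).1 c b = if c = b then 1 else 0 := Matrix.one_apply

/-- topological recursion, ambient class -/
theorem trr_amb (hF : IsGW X F) (h1 : IsGenusOne F) (a : Fin (X.dim + 1)) (m : ℕ) (y z : Ins X) :
    sr E (cor F 0 [(Sum.inl a, m), y, z]) = ∑ i, (SB E h1 m).1 i a *
      sr E (cor F 0 [hpow X i, y, z]) := by
  cases m with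
  | zero =>
    rw [Finset.sum_eq_single a]
    · rw [SB_zero, if_pos rfl, one_mul]
      rfl
    · intro b _ hb
      rw [SB_zero, if_neg hb, zero_mul]
    · simp
  | succ m =>
    rw [trr_sr E hF (Sum.inl a) m y z, Fintype.sum_sum_type]
    have h2 : ∑ v : X.Prim, ∑ β, pairingInv X (Sum.inr v) β •
        (sr E (cor F 0 [(β, 0), y, z]) * sr E (cor F 0 [(Sum.inl a, m), (Sum.inr v, 0)])) = 0 := by
      refine Finset.sum_eq_zero fun v _ => Finset.sum_eq_zero fun β _ => ?_
      rw [sr_mixed E hF h1, mul_zero, smul_zero]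
    rw [h2, add_zero]
    have h3 : ∀ l : Fin (X.dim + 1), ∑ β, pairingInv X (Sum.inl l) β •
        (sr E (cor F 0 [(β, 0), y, z]) * sr E (cor F 0 [(Sum.inl a, m), (Sum.inl l, 0)])) =
        ∑ k : Fin (X.dim + 1), pairingInv X (Sum.inl l) (Sum.inl k) •
          (sr E (cor F 0 [hpow X k, y, z]) * sr E (cor F 0 [(Sum.inl a, m), (Sum.inl l, 0)])) := by
      intro l
      rw [Fintype.sum_sum_type]
      have h4 : ∑ v : X.Prim, pairingInv X (Sum.inl l) (Sum.inr v) •
        (sr E (cor F 0 [(Sum.inr v, 0), y, z]) *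
          sr E (cor F 0 [(Sum.inl a, m), (Sum.inl l, 0)])) = 0 := by
        refine Finset.sum_eq_zero fun v _ => ?_
        have h7 : pairingInv X (Sum.inl l) (Sum.inr v) = 0 := rfl
        rw [h7, zero_smul]
      rw [h4, add_zero]
      rfl
    rw [Finset.sum_congr rfl fun l _ => h3 l, Finset.sum_comm]
    refine Finset.sum_congr rfl fun k _ => ?_
    rw [SB_succ, Finset.sum_mul]
    refine Finset.sum_congr rfl fun l _ => ?_
    rw [smul_mul_assoc, mul_comm]

/-- the two-point function of primitive classes -/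
theorem sr_two_prim (h1 : IsGenusOne F) (v w : X.Prim) (m : ℕ) :
    sr E (cor F 0 [(Sum.inr v, m), (Sum.inr w, 0)]) = X.form v w • (SB E h1 (m + 1)).2 v := by
  change _ = X.form v w • sr E (fun d L => Classical.choose h1.mono2 m 0 d L)
  rw [← sr_smul]
  exact sr_congr E fun d L => Classical.choose_spec h1.mono2 d v w m 0 _ (ins_amb E L)

/-- topological recursion, primitive class -/
theorem trr_prim (hF : IsGW X F) (h1 : IsGenusOne F) (v : X.Prim) (m : ℕ) (y z : Ins X) :
    sr E (cor F 0 [(Sum.inr v, m), y, z]) = (SB E h1 m).2 v *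
      sr E (cor F 0 [(Sum.inr v, 0), y, z]) := by
  cases m with
  | zero =>
    change _ = 1 * _
    rw [one_mul]
  | succ m =>
    rw [trr_sr E hF (Sum.inr v) m y z, Fintype.sum_sum_type]
    have h2 : ∑ l : Fin (X.dim + 1), ∑ β, pairingInv X (Sum.inl l) β •
        (sr E (cor F 0 [(β, 0), y, z]) * sr E (cor F 0 [(Sum.inr v, m), (Sum.inl l, 0)])) = 0 := by
      refine Finset.sum_eq_zero fun l _ => Finset.sum_eq_zero fun β _ => ?_
      rw [sr_prim E h1 0 v m, mul_zero, smul_zero]
      intro x hx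
      rcases List.mem_cons.1 hx with h | h
      · exact ⟨l, by rw [h]⟩
      · simp at h
    rw [h2, zero_add]
    have h3 : ∀ u : X.Prim, ∑ β, pairingInv X (Sum.inr u) β •
        (sr E (cor F 0 [(β, 0), y, z]) * sr E (cor F 0 [(Sum.inr v, m), (Sum.inr u, 0)])) =
        ∑ b : X.Prim, (X.form v u * (Matrix.of X.form)⁻¹ u b) •
          ((SB E h1 (m + 1)).2 v * sr E (cor F 0 [(Sum.inr b, 0), y, z])) := by
      intro u
      rw [Fintype.sum_sum_type]
      have h4 : ∑ l : Fin (X.dim + 1), pairingInv X (Sum.inr u) (Sum.inl l) •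
        (sr E (cor F 0 [(Sum.inl l, 0), y, z]) *
          sr E (cor F 0 [(Sum.inr v, m), (Sum.inr u, 0)])) = 0 := by
        refine Finset.sum_eq_zero fun l _ => ?_
        have h7 : pairingInv X (Sum.inr u) (Sum.inl l) = 0 := rfl
        rw [h7, zero_smul]
      rw [h4, zero_add]
      refine Finset.sum_congr rfl fun b _ => ?_
      have h7 : pairingInv X (Sum.inr u) (Sum.inr b) = (Matrix.of X.form)⁻¹ u b := rfl
      rw [sr_two_prim E h1, mul_smul_comm, smul_smul, h7, mul_comm (X.form v u),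
        mul_comm ((SB E h1 (m + 1)).2 v)]
    rw [Finset.sum_congr rfl fun u _ => h3 u, Finset.sum_comm]
    simp only [← Finset.sum_smul]
    have h5 : ∀ b, ∑ u, X.form v u * (Matrix.of X.form)⁻¹ u b = if v = b then 1 else 0 := by
      intro b
      have h6 : Matrix.of X.form * (Matrix.of X.form)⁻¹ = 1 :=
        Matrix.mul_nonsing_inv _ (isUnit_iff_ne_zero.2 X.form_nondeg)
      have := congrFun (congrFun h6 v) b
      rw [Matrix.mul_apply, Matrix.one_apply] at this
      exact this
    simp only [h5]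
    rw [Finset.sum_eq_single v]
    · rw [if_pos rfl, one_smul]
    · intro b _ hb
      rw [if_neg (Ne.symm hb), zero_smul]
    · simp

/-! ### grading, dilaton and divisor equation -/

/-- the sum of `m + 1/2 + μ` -/
noncomputable def wtL (X : CompleteIntersection) (M : List (Ins X)) : ℂ :=
  (M.map fun x => (x.2 : ℂ) + 1 / 2 + mu X x.1).sum

theorem wtL_eq (M : List (Ins X)) : wtL X M =
    ((M.map fun x => (x.2 : ℤ) + hp X x.1 - 1).sum : ℤ) + (M.length : ℂ) * (3 / 2 - X.dim / 2) := by
  unfold wtL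
  induction M with
  | nil => simp
  | cons x M ih =>
    rw [List.map_cons, List.sum_cons, ih, List.map_cons, List.sum_cons, List.length_cons]
    unfold mu
    push_cast
    ring

theorem lowerSum_cons (T : Ix X → Ix X → ℂ) (G : List (Ins X) → ℂ) (x : Ins X)
    (L : List (Ins X)) : lowerSum X T G (x :: L) =
      (if x.2 = 0 then 0 else ∑ c, T x.1 c * G ((c, x.2 - 1) :: L)) +
        lowerSum X T (fun M => G (x :: M)) L := by
  have h1 : lowerSum X T G (x :: L) =
      ∑ j : Fin (L.length + 1), if ((x :: L).get j).2 = 0 then 0 else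
        ∑ c, T ((x :: L).get j).1 c * G ((x :: L).set j (c, ((x :: L).get j).2 - 1)) := rfl
  rw [h1, Fin.sum_univ_succ]
  rfl

theorem lowerSum_smul (c : ℂ) (T : Ix X → Ix X → ℂ) (G : List (Ins X) → ℂ)
    (L : List (Ins X)) : lowerSum X (fun a b => c * T a b) G L = c * lowerSum X T G L := by
  unfold lowerSum
  rw [Finset.mul_sum]
  refine Finset.sum_congr rfl fun j _ => ?_
  split_ifs
  · rw [mul_zero]
  · rw [Finset.mul_sum]
    exact Finset.sum_congr rfl fun c _ => by ring

theorem sum_c1_one (G : Ix X → ℂ) : ∑ c, c1 X (one X) c * G c = (index X : ℂ) * G (hcls X) := by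
  rw [Finset.sum_eq_single (hcls X)]
  · have : c1 X (one X) (hcls X) = index X := by
      unfold c1 one hcls hmul
      simp
    rw [this]
  · intro c _ hc
    have : c1 X (one X) c = 0 := by
      rcases c with j | v
      · unfold c1 one hmul
        have hj : (j : ℕ) ≠ ((0 : Fin (X.dim + 1)) : ℕ) + 1 := by
          intro h
          apply hc
          unfold hcls
          congr 1
          apply Fin.ext
          simpa using h
        simp only
        rw [if_neg hj, mul_zero]
      · unfold c1 one hmul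
        simp
    rw [this, zero_mul]
  · simp

/-- the coefficients of the Euler equation -/
theorem pt (hF : IsGW X F) (d : ℕ) (b e : Ix X) (k : ℕ) (M : List (Ins X)) :
    (3 / 2 + mu X (one X)) * F 0 d ((one X, 1) :: (b, k) :: (e, 0) :: M) +
      ∑ c, c1 X (one X) c * F 0 d ((c, 0) :: (b, k) :: (e, 0) :: M) =
    ((k : ℂ) + 1 + mu X b + mu X e) * F 0 d ((b, k) :: (e, 0) :: M) +
      (if k = 0 then 0 else ∑ c, c1 X b c * F 0 d ((c, k - 1) :: (e, 0) :: M)) +
      (if k = 0 then (if d = 0 ∧ M = [] then ∑ c, c1 X b c * pairing X c e else 0) else 0) +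
      (wtL X M * F 0 d ((b, k) :: (e, 0) :: M) +
        lowerSum X (c1 X) (fun N => F 0 d ((b, k) :: (e, 0) :: N)) M) := by
  have h1 := hF.dilaton 0 d ((b, k) :: (e, 0) :: M)
  have h2 := hF.divisor 0 d ((b, k) :: (e, 0) :: M)
  rw [lowerSum_cons, lowerSum_cons] at h2
  have h3 : wtL X M * F 0 d ((b, k) :: (e, 0) :: M) =
      ((index X : ℂ) * d - ((k : ℂ) + 1 + mu X b + mu X e) +
        (M.length : ℂ) * (3 / 2 - X.dim / 2)) * F 0 d ((b, k) :: (e, 0) :: M) := by
    by_cases h0 : F 0 d ((b, k) :: (e, 0) :: M) = 0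
    · rw [h0, mul_zero, mul_zero]
    · congr 1
      have h4 := hF.grading_p 0 d _ h0
      rw [List.map_cons, List.map_cons, List.sum_cons, List.sum_cons] at h4
      rw [wtL_eq]
      have h5 : ((M.map fun x => (x.2 : ℤ) + hp X x.1 - 1).sum : ℤ) =
          (1 - ((0 : ℕ) : ℤ)) * (X.dim - 3) + index X * d - ((k : ℤ) + hp X b - 1) -
            (((0 : ℕ) : ℤ) + hp X e - 1) := by
        linarith
      rw [h5]
      unfold mu
      push_cast
      ring
  have h6 : lowerSum X (c1 X) (fun N => F 0 d ((b, k) :: (e, 0) :: N)) M =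
      index X * lowerSum X (hmul X) (fun N => F 0 d ((b, k) :: (e, 0) :: N)) M :=
    lowerSum_smul (index X : ℂ) (hmul X) _ M
  have h7 : (if k = 0 then (0 : ℂ) else ∑ c, c1 X b c * F 0 d ((c, k - 1) :: (e, 0) :: M)) =
      index X * (if k = 0 then (0 : ℂ) else
        ∑ c, hmul X b c * F 0 d ((c, k - 1) :: (e, 0) :: M)) := by
    split_ifs
    · rw [mul_zero]
    · rw [Finset.mul_sum]
      exact Finset.sum_congr rfl fun c _ => by rw [c1]; ring
  have h8 : (if k = 0 then (if d = 0 ∧ M = [] then ∑ c, c1 X b c * pairing X c e else 0) else 0) =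
      (index X : ℂ) * (if 0 = 0 ∧ d = 0 then
        pairTerm X (fun a b => ∑ c, hmul X a c * pairing X c b) ((b, k) :: (e, 0) :: M) else 0) := by
    have h9 : ∑ c, c1 X b c * pairing X c e =
        (index X : ℂ) * ∑ c, hmul X b c * pairing X c e := by
      rw [Finset.mul_sum]
      exact Finset.sum_congr rfl fun c _ => by rw [c1]; ring
    rw [h9]
    rcases k with _ | k
    · rcases M with _ | ⟨x, M⟩
      · by_cases hd : d = 0
        · simp [pairTerm, hd]
        · simp [hd]
      · simp [pairTerm]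
    · simp [pairTerm]
  have h10 : mu X (one X) = - (X.dim : ℂ) / 2 := by
    unfold mu one hp
    simp
    ring
  have h11 : ((((b, k) :: (e, 0) :: M).length : ℕ) : ℂ) = M.length + 2 := by
    rw [List.length_cons, List.length_cons]
    push_cast
    ring
  rw [sum_c1_one, h3, h6, h7, h8, h1, h2, h10, h11]
  simp only [if_neg (show ¬ ((0 : ℕ) = 1 ∧ d = 0) by omega), if_true]
  push_cast
  ring

/-! ### the sum over the variables -/

theorem move_set (hF : IsGW X F) (d : ℕ) (y z x : Ins X) (hx : par X x.1 = false)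
    (L : List (Fin n)) (j : ℕ) (hj : j < L.length) :
    F 0 d (y :: z :: (L.map E.ins).set j x) = F 0 d (x :: y :: z :: (L.eraseIdx j).map E.ins) := by
  have h1 : (L.map E.ins).set j x =
      (L.take j).map E.ins ++ x :: (L.drop (j + 1)).map E.ins := by
    rw [List.set_eq_take_append_cons_drop, if_pos (by simpa using hj), List.map_take,
      List.map_drop]
  have h2 : (L.eraseIdx j).map E.ins =
      (L.take j).map E.ins ++ (L.drop (j + 1)).map E.ins := by
    rw [List.eraseIdx_eq_take_drop_succ, List.map_append]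
  rw [h1, h2]
  exact H598.move_even hF 0 d x hx (y :: z :: (L.take j).map E.ins) []
    ((L.drop (j + 1)).map E.ins)

theorem sum_c1_inl (a : Fin (X.dim + 1)) (G : Ix X → ℂ) :
    ∑ c, c1 X (Sum.inl a) c * G c =
      ∑ c : Fin (X.dim + 1), c1 X (Sum.inl a) (Sum.inl c) * G (Sum.inl c) := by
  refine H980.sum_Ix _ fun v => ?_
  have : c1 X (Sum.inl a) (Sum.inr v) = 0 := by
    unfold c1 hmul
    simp
  rw [this, zero_mul]

/-- the term of a variable -/
noncomputable def tm (F : ℕ → ℕ → List (Ins X) → ℂ) (y z x : Ins X) (d : ℕ)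
    (M : List (Ins X)) : ℂ :=
  ((x.2 : ℂ) + 1 / 2 + mu X x.1) * cor F 0 [x, y, z] d M +
    if x.2 = 0 then 0 else ∑ c, c1 X x.1 c * cor F 0 [(c, x.2 - 1), y, z] d M

theorem sum_tm (hF : IsGW X F) (y z : Ins X) :
    ∑ i, (MvPowerSeries.X i : RB n) * sr E (tm F y z (E.ins i)) =
      sr E (fun d M => wtL X M * F 0 d (y :: z :: M) +
        lowerSum X (c1 X) (fun N => F 0 d (y :: z :: N)) M) := by
  have hsym : ∀ i, Sym (fun L : List (Fin n) => PowerSeries.mk fun d =>
      tm F y z (E.ins i) d (L.map E.ins)) := by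
    intro i L M h
    ext d
    rw [PowerSeries.coeff_mk, PowerSeries.coeff_mk]
    unfold tm
    rw [symF_cor E hF 0 _ d L M h]
    congr 1
    split_ifs
    · rfl
    · exact Finset.sum_congr rfl fun c _ => by rw [symF_cor E hF 0 _ d L M h]
  have h2 := H980.toSer_entries (n := n) (K := PowerSeries ℂ)
    (fun i L => PowerSeries.mk fun d => tm F y z (E.ins i) d (L.map E.ins)) hsym
  refine Eq.trans h2.symm ?_
  rw [sr]
  congr 1
  funext L
  ext d
  rw [PowerSeries.coeff_mk, map_sum]
  simp only [PowerSeries.coeff_mk]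
  have h3 : wtL X (L.map E.ins) = ∑ j : Fin L.length,
      (((E.ins (L.get j)).2 : ℂ) + 1 / 2 + mu X (E.ins (L.get j)).1) := by
    unfold wtL
    rw [List.map_map]
    exact (Fin.sum_univ_fun_getElem L _).symm
  have h4 : lowerSum X (c1 X) (fun N => F 0 d (y :: z :: N)) (L.map E.ins) =
      ∑ j : Fin L.length, if (E.ins (L.get j)).2 = 0 then 0 else
        ∑ c, c1 X (E.ins (L.get j)).1 c *
          F 0 d ((c, (E.ins (L.get j)).2 - 1) :: y :: z :: (L.eraseIdx j).map E.ins) := by
    unfold lowerSum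
    refine Fintype.sum_equiv (finCongr (by simp)) _ _ fun j => ?_
    have hj : (j : ℕ) < L.length := by simpa using j.2
    have e1 : (L.map E.ins).get j = E.ins (L.get ⟨j, hj⟩) := by
      simp
    rw [e1]
    change _ = if (E.ins (L.get ⟨j, hj⟩)).2 = 0 then 0 else
        ∑ c, c1 X (E.ins (L.get ⟨j, hj⟩)).1 c *
          F 0 d ((c, (E.ins (L.get ⟨j, hj⟩)).2 - 1) :: y :: z :: (L.eraseIdx j).map E.ins)
    by_cases h0 : (E.ins (L.get ⟨j, hj⟩)).2 = 0
    · rw [if_pos h0, if_pos h0]
    · rw [if_neg h0, if_neg h0]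
      change ∑ c, c1 X (Sum.inl _) c * _ = ∑ c, c1 X (Sum.inl _) c * _
      rw [sum_c1_inl, sum_c1_inl]
      refine Finset.sum_congr rfl fun c _ => ?_
      congr 1
      exact move_set E hF d y z (Sum.inl c, (E.ins (L.get ⟨j, hj⟩)).2 - 1) rfl L j hj
  rw [h3, h4, Finset.sum_mul, ← Finset.sum_add_distrib]
  refine Finset.sum_congr rfl fun j _ => ?_
  unfold tm
  have h5 : F 0 d (y :: z :: L.map E.ins) =
      F 0 d (E.ins (L.get j) :: y :: z :: (L.eraseIdx j).map E.ins) := by
    rw [← move_set E hF d y z _ rfl L j j.2]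
    congr 3
    have : E.ins (L.get j) = (L.map E.ins)[(j : ℕ)]'(by simp) := by simp
    rw [this, List.set_getElem_self]
  rw [h5]
  rfl

/-! ### the vector `calE` -/

theorem act_muc (f : Fin (X.dim + 1) → RB n) (A : OB X n) (c : ℂ) (a : Fin (X.dim + 1)) :
    ∑ i, actB X n (A * muc X n c) (eB X n a) i * f i =
      (c + mu X (Sum.inl a)) • ∑ i, A.1 i a * f i := by
  rw [smul_RB, Finset.mul_sum]
  refine Finset.sum_congr rfl fun i _ => ?_
  have h : actB X n (A * muc X n c) (eB X n a) i = A.1 i a * cb n (c + mu X (Sum.inl a)) := by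
    change Matrix.mulVec (A.1 * Matrix.diagonal fun b => cb n (c + mu X (Sum.inl b)))
      (Pi.single a 1) i = _
    rw [Matrix.mulVec_single_one, Matrix.col_apply, Matrix.mul_diagonal]
  rw [h]
  ring

theorem act_R (f : Fin (X.dim + 1) → RB n) (A : OB X n) (a : Fin (X.dim + 1)) :
    ∑ i, actB X n (A * RBcl X n) (eB X n a) i * f i =
      ∑ c : Fin (X.dim + 1), c1 X (Sum.inl a) (Sum.inl c) • ∑ i, A.1 i c * f i := by
  have h : ∀ i, actB X n (A * RBcl X n) (eB X n a) i =
      ∑ c, A.1 i c * cb n (c1 X (Sum.inl a) (Sum.inl c)) := by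
    intro i
    change Matrix.mulVec (A.1 * Matrix.of fun c b => cb n (c1 X (Sum.inl b) (Sum.inl c)))
      (Pi.single a 1) i = _
    rw [Matrix.mulVec_single_one, Matrix.col_apply, Matrix.mul_apply]
    rfl
  simp only [h, Finset.sum_mul, smul_RB, Finset.mul_sum]
  rw [Finset.sum_comm]
  exact Finset.sum_congr rfl fun c _ => Finset.sum_congr rfl fun i _ => by ring

theorem calE_sum (hF : IsGW X F) (h1 : IsGenusOne F) (y z : Ins X) :
    ∑ i, calE E h1 i * sr E (cor F 0 [hpow X i, y, z]) =
      (3 / 2 + mu X (one X)) • sr E (cor F 0 [(one X, 1), y, z]) +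
        ∑ c, c1 X (one X) c • sr E (cor F 0 [(c, 0), y, z]) -
      ∑ i, (MvPowerSeries.X i : RB n) * sr E (tm F y z (E.ins i)) := by
  have e1 : ∀ i, calE E h1 i = actB X n (SB E h1 1 * muc X n (3 / 2)) (eB X n 0) i +
      actB X n (SB E h1 0 * RBcl X n) (eB X n 0) i -
      ∑ j, (MvPowerSeries.X j : RB n) *
        (actB X n (SB E h1 (E.e j).2 * muc X n ((E.e j).2 + 1 / 2)) (eB X n (E.e j).1) i +
        if (E.e j).2 = 0 then 0 else
          actB X n (SB E h1 ((E.e j).2 - 1) * RBcl X n) (eB X n (E.e j).1) i) := by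
    intro i
    unfold calE
    rw [map_add, Pi.sub_apply, Finset.sum_apply]
    have h0 : SB E h1 0 * RBcl X n = RBcl X n := one_mul _
    rw [h0]
    congr 1
    refine Finset.sum_congr rfl fun j _ => ?_
    rw [Pi.smul_apply, smul_eq_mul]
    congr 1
    rw [Pi.add_apply]
    congr 1
    split_ifs
    · rfl
    · rfl
  simp only [e1, sub_mul, add_mul, Finset.sum_sub_distrib, Finset.sum_add_distrib]
  rw [act_muc, act_R]
  congr 1
  · congr 1
    · rw [← trr_amb E hF h1]
      rfl
    · rw [H980.sum_Ix]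
      · refine Finset.sum_congr rfl fun c _ => ?_
        rw [← trr_amb E hF h1]
        rfl
      · intro v
        have : c1 X (one X) (Sum.inr v) = 0 := by
          unfold c1 one hmul
          simp
        rw [this, zero_smul]
  · simp only [Finset.sum_mul]
    rw [Finset.sum_comm]
    refine Finset.sum_congr rfl fun j _ => ?_
    have h2 : ∀ i, (MvPowerSeries.X j : RB n) *
        (actB X n (SB E h1 (E.e j).2 * muc X n ((E.e j).2 + 1 / 2)) (eB X n (E.e j).1) i +
        if (E.e j).2 = 0 then 0 else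
          actB X n (SB E h1 ((E.e j).2 - 1) * RBcl X n) (eB X n (E.e j).1) i) *
        sr E (cor F 0 [hpow X i, y, z]) = MvPowerSeries.X j *
        (actB X n (SB E h1 (E.e j).2 * muc X n ((E.e j).2 + 1 / 2)) (eB X n (E.e j).1) i *
          sr E (cor F 0 [hpow X i, y, z]) +
        if (E.e j).2 = 0 then 0 else
          actB X n (SB E h1 ((E.e j).2 - 1) * RBcl X n) (eB X n (E.e j).1) i *
            sr E (cor F 0 [hpow X i, y, z])) := by
      intro i
      split_ifs <;> ring
    simp only [h2]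
    rw [← Finset.mul_sum, Finset.sum_add_distrib, act_muc]
    congr 1
    have h3 : sr E (tm F y z (E.ins j)) =
        (((E.ins j).2 : ℂ) + 1 / 2 + mu X (E.ins j).1) • sr E (cor F 0 [E.ins j, y, z]) +
        if (E.ins j).2 = 0 then 0 else
          ∑ c, c1 X (E.ins j).1 c • sr E (cor F 0 [(c, (E.ins j).2 - 1), y, z]) := by
      unfold tm
      rw [sr_add, sr_smul]
      congr 1
      by_cases h0 : (E.ins j).2 = 0
      · simp only [h0, if_true]
        exact sr_zero E
      · simp only [h0, if_false]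
        rw [sr_sum]
        exact Finset.sum_congr rfl fun c _ => sr_smul E _ _
    rw [h3]
    congr 1
    · rw [← trr_amb E hF h1]
      rfl
    · by_cases h0 : (E.e j).2 = 0
      · have h0' : (E.ins j).2 = 0 := h0
        simp only [h0, h0', if_true]
        exact Finset.sum_const_zero
      · have h0' : ¬ (E.ins j).2 = 0 := h0
        rw [if_neg h0']
        simp only [if_neg h0]
        rw [act_R, H980.sum_Ix]
        · refine Finset.sum_congr rfl fun c _ => ?_
          rw [← trr_amb E hF h1]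
          rfl
        · intro v
          have : c1 X (E.ins j).1 (Sum.inr v) = 0 := by
            unfold c1 Fam.ins hmul
            simp
          rw [this, zero_smul]

/-- **the Euler equation for two-point functions** -/
theorem euler_two (hF : IsGW X F) (h1 : IsGenusOne F) (b e : Ix X) (k : ℕ) :
    ∑ i, calE E h1 i * sr E (cor F 0 [hpow X i, (b, k), (e, 0)]) =
      ((k : ℂ) + 1 + mu X b + mu X e) • sr E (cor F 0 [(b, k), (e, 0)]) +
      (if k = 0 then 0 else ∑ c, c1 X b c • sr E (cor F 0 [(c, k - 1), (e, 0)])) +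
      (if k = 0 then cb n (∑ c, c1 X b c * pairing X c e) else 0) := by
  rw [calE_sum E hF h1, sum_tm E hF, sub_eq_iff_eq_add]
  have e2 : (if k = 0 then (0 : RB n) else ∑ c, c1 X b c • sr E (cor F 0 [(c, k - 1), (e, 0)])) =
      sr E (fun d L => if k = 0 then 0 else ∑ c, c1 X b c * cor F 0 [(c, k - 1), (e, 0)] d L) := by
    split_ifs
    · exact (sr_zero E).symm
    · rw [sr_sum]
      exact Finset.sum_congr rfl fun c _ => (sr_smul E _ _).symm
  have e3 : (if k = 0 then cb n (∑ c, c1 X b c * pairing X c e) else 0) =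
      sr E (fun d L => if k = 0 then
        (if d = 0 ∧ L = [] then ∑ c, c1 X b c * pairing X c e else 0) else 0) := by
    split_ifs
    · exact (sr_const E _).symm
    · exact (sr_zero E).symm
  have e4 : ∑ c, c1 X (one X) c • sr E (cor F 0 [(c, 0), (b, k), (e, 0)]) =
      sr E (fun d L => ∑ c, c1 X (one X) c * cor F 0 [(c, 0), (b, k), (e, 0)] d L) := by
    rw [sr_sum]
    exact Finset.sum_congr rfl fun c _ => (sr_smul E _ _).symm
  rw [e2, e3, e4, ← sr_smul, ← sr_smul, ← sr_add, ← sr_add, ← sr_add, ← sr_add]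
  exact sr_congr E fun d L => pt hF d b e k (L.map E.ins)

/-! ### the operator equation -/

theorem rat_smul_RB (k : ℕ) (f : RB n) : ((k : ℚ) + 1) • f = cb n ((k : ℂ) + 1) * f := by
  have h1 : cb n ((k : ℂ) + 1) = (k : RB n) + 1 := by
    rw [cb_add, cb_one]
    unfold cb
    rw [map_natCast, map_natCast]
  have h2 : algebraMap ℚ (RB n) ((k : ℚ) + 1) = (k : RB n) + 1 := by
    rw [map_add, map_natCast, map_one]
  rw [Algebra.smul_def, h2, h1]

/-- the ambient part -/
theorem euler_amb (hF : IsGW X F) (h1 : IsGenusOne F) (k : ℕ) (c b : Fin (X.dim + 1)) :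
    (CB E h1 (calE E h1) * SB E h1 k).1 c b =
      cb n ((k : ℂ) + 1) * (SB E h1 (k + 1)).1 c b +
      (SB E h1 (k + 1)).1 c b * cb n (mu X (Sum.inl b)) -
      cb n (mu X (Sum.inl c)) * (SB E h1 (k + 1)).1 c b +
      ∑ j, (SB E h1 k).1 c j * cb n (c1 X (Sum.inl b) (Sum.inl j)) := by
  have e0 : ∀ i a : Fin (X.dim + 1), ∑ j, (SB E h1 k).1 j b *
      sr E (cor F 0 [hpow X i, hpow X j, hpow X a]) =
      sr E (cor F 0 [hpow X i, (Sum.inl b, k), (Sum.inl a, 0)]) := by
    intro i a
    have s1 : sr E (cor F 0 [hpow X i, (Sum.inl b, k), (Sum.inl a, 0)]) =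
        sr E (cor F 0 [(Sum.inl b, k), hpow X i, hpow X a]) :=
      sr_move E hF 0 (Sum.inl b, k) rfl [hpow X i] [hpow X a]
    rw [s1, trr_amb E hF h1]
    refine Finset.sum_congr rfl fun j _ => ?_
    congr 1
    exact sr_move E hF 0 (hpow X j) rfl [hpow X i] [hpow X a]
  have e1 : (CB E h1 (calE E h1) * SB E h1 k).1 c b =
      ∑ a : Fin (X.dim + 1), pairingInv X (Sum.inl a) (Sum.inl c) •
        ∑ i, calE E h1 i * sr E (cor F 0 [hpow X i, (Sum.inl b, k), (Sum.inl a, 0)]) := by
    change ∑ j, (∑ i, calE E h1 i * ∑ a : Fin (X.dim + 1),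
      pairingInv X (Sum.inl a) (Sum.inl c) • sr E (cor F 0 [hpow X i, hpow X j, hpow X a])) *
        (SB E h1 k).1 j b = _
    simp only [← e0, Finset.sum_mul, Finset.mul_sum, Finset.smul_sum]
    rw [Finset.sum_comm]
    conv_lhs => enter [2, i]; rw [Finset.sum_comm]
    rw [Finset.sum_comm]
    refine Finset.sum_congr rfl fun a _ => Finset.sum_congr rfl fun i _ =>
      Finset.sum_congr rfl fun j _ => ?_
    rw [smul_RB, smul_RB]
    ring
  rw [e1]
  simp only [euler_two E hF h1, smul_add, Finset.sum_add_distrib]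
  have e2 : ∑ a : Fin (X.dim + 1), pairingInv X (Sum.inl a) (Sum.inl c) •
      (((k : ℂ) + 1 + mu X (Sum.inl b) + mu X (Sum.inl a)) •
        sr E (cor F 0 [(Sum.inl b, k), (Sum.inl a, 0)])) =
      cb n ((k : ℂ) + 1) * (SB E h1 (k + 1)).1 c b +
      (SB E h1 (k + 1)).1 c b * cb n (mu X (Sum.inl b)) -
      cb n (mu X (Sum.inl c)) * (SB E h1 (k + 1)).1 c b := by
    have e3 : cb n ((k : ℂ) + 1) * (SB E h1 (k + 1)).1 c b +
        (SB E h1 (k + 1)).1 c b * cb n (mu X (Sum.inl b)) -
        cb n (mu X (Sum.inl c)) * (SB E h1 (k + 1)).1 c b =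
        ((k : ℂ) + 1 + mu X (Sum.inl b) - mu X (Sum.inl c)) • (SB E h1 (k + 1)).1 c b := by
      have : cb n ((k : ℂ) + 1 + mu X (Sum.inl b) - mu X (Sum.inl c)) =
          cb n ((k : ℂ) + 1) + cb n (mu X (Sum.inl b)) - cb n (mu X (Sum.inl c)) := by
        unfold cb
        rw [map_sub, map_sub, map_add (PowerSeries.C) ((k : ℂ) + 1), map_add MvPowerSeries.C]
      rw [smul_RB, this]
      ring
    rw [e3, SB_succ, Finset.smul_sum]
    refine Finset.sum_congr rfl fun a _ => ?_
    rw [smul_smul, smul_smul]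
    by_cases h : (a : ℕ) + c = X.dim
    · have hmu : mu X (Sum.inl a) = - mu X (Sum.inl c) := by
        have h' : ((a : ℕ) : ℂ) + ((c : ℕ) : ℂ) = X.dim := by exact_mod_cast h
        unfold mu hp
        simp only
        linear_combination h'
      rw [hmu, mul_comm]
      congr 2
    · have hp0 : pairingInv X (Sum.inl a) (Sum.inl c) = 0 := by
        unfold pairingInv
        simp only
        rw [if_neg h]
      rw [hp0, zero_mul, mul_zero]
  rw [e2, add_assoc]
  congr 1
  rcases k with _ | k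
  · simp only [if_true, smul_zero, Finset.sum_const_zero, zero_add]
    have e4 : ∀ j, (SB E h1 0).1 c j * cb n (c1 X (Sum.inl b) (Sum.inl j)) =
        if c = j then cb n (c1 X (Sum.inl b) (Sum.inl j)) else 0 := by
      intro j
      rw [SB_zero]
      split_ifs
      · rw [one_mul]
      · rw [zero_mul]
    simp only [e4, Finset.sum_ite_eq, Finset.mem_univ, if_true]
    have e5 : ∀ a : Fin (X.dim + 1), pairingInv X (Sum.inl a) (Sum.inl c) •
        cb n (∑ c', c1 X (Sum.inl b) c' * pairing X c' (Sum.inl a)) =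
        cb n (pairingInv X (Sum.inl a) (Sum.inl c) *
          ∑ c', c1 X (Sum.inl b) c' * pairing X c' (Sum.inl a)) := by
      intro a
      rw [smul_RB, cb_mul]
    simp only [e5]
    rw [← cb_sum]
    congr 1
    simp only [sum_c1_inl, Finset.mul_sum]
    rw [Finset.sum_comm]
    have e6 : ∀ j : Fin (X.dim + 1), ∑ a : Fin (X.dim + 1),
        pairingInv X (Sum.inl a) (Sum.inl c) *
          (c1 X (Sum.inl b) (Sum.inl j) * pairing X (Sum.inl j) (Sum.inl a)) =
        c1 X (Sum.inl b) (Sum.inl j) * if j = c then 1 else 0 := by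
      intro j
      rw [← H598.pairing_inv_amb j c, Finset.mul_sum]
      exact Finset.sum_congr rfl fun a _ => by ring
    simp only [e6]
    simp
  · simp only [Nat.succ_ne_zero, if_false, smul_zero, Finset.sum_const_zero, add_zero,
      Nat.add_sub_cancel]
    have e7 : ∀ a : Fin (X.dim + 1), ∑ c', c1 X (Sum.inl b) c' •
        sr E (cor F 0 [(c', k), (Sum.inl a, 0)]) =
        ∑ j : Fin (X.dim + 1), c1 X (Sum.inl b) (Sum.inl j) •
          sr E (cor F 0 [(Sum.inl j, k), (Sum.inl a, 0)]) := by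
      intro a
      refine H980.sum_Ix _ fun v => ?_
      have : c1 X (Sum.inl b) (Sum.inr v) = 0 := by
        unfold c1 hmul
        simp
      rw [this, zero_smul]
    simp only [e7, Finset.smul_sum]
    rw [Finset.sum_comm]
    refine Finset.sum_congr rfl fun j _ => ?_
    rw [SB_succ, Finset.sum_mul]
    refine Finset.sum_congr rfl fun a _ => ?_
    rw [smul_comm, smul_RB (c1 X (Sum.inl b) (Sum.inl j)), mul_comm]

/-- the primitive part -/
theorem euler_prim (hF : IsGW X F) (h1 : IsGenusOne F) (k : ℕ) (v : X.Prim) :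
    (CB E h1 (calE E h1) * SB E h1 k).2 v = cb n ((k : ℂ) + 1) * (SB E h1 (k + 1)).2 v := by
  obtain ⟨w, hw⟩ : ∃ w, X.form v w ≠ 0 := by
    by_contra hne
    push Not at hne
    refine X.form_nondeg (Matrix.det_eq_zero_of_row_eq_zero v fun w => hne w)
  have e0 : ∀ i : Fin (X.dim + 1), sr E (cor F 0 [hpow X i, (Sum.inr v, k), (Sum.inr w, 0)]) =
      X.form v w • ((SB E h1 k).2 v *
        sr E (fun d L => Classical.choose h1.mono2 0 0 d (hpow X i :: L))) := by
    intro i
    have s1 : sr E (cor F 0 [hpow X i, (Sum.inr v, k), (Sum.inr w, 0)]) =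
        sr E (cor F 0 [(Sum.inr v, k), hpow X i, (Sum.inr w, 0)]) :=
      (sr_move E hF 0 (hpow X i) rfl [(Sum.inr v, k)] [(Sum.inr w, 0)]).symm
    have s2 : sr E (cor F 0 [(Sum.inr v, 0), hpow X i, (Sum.inr w, 0)]) =
        X.form v w • sr E (fun d L => Classical.choose h1.mono2 0 0 d (hpow X i :: L)) := by
      have s3 : sr E (cor F 0 [(Sum.inr v, 0), hpow X i, (Sum.inr w, 0)]) =
          sr E (cor F 0 [(Sum.inr v, 0), (Sum.inr w, 0), hpow X i]) := by
        rw [show [((Sum.inr v, 0) : Ins X), hpow X i, (Sum.inr w, 0)] =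
          [(Sum.inr v, 0)] ++ hpow X i :: [(Sum.inr w, 0)] from rfl, sr_move E hF 0 (hpow X i) rfl]
        exact (sr_move E hF 0 (hpow X i) rfl [(Sum.inr v, 0), (Sum.inr w, 0)] []).symm
      rw [s3, ← sr_smul]
      refine sr_congr E fun d L => ?_
      refine Classical.choose_spec h1.mono2 d v w 0 0 (hpow X i :: L.map E.ins) ?_
      intro x hx
      rcases List.mem_cons.1 hx with h | h
      · exact ⟨i, by rw [h]; rfl⟩
      · exact ins_amb E L x h
    rw [s1, trr_prim E hF h1, s2, mul_smul_comm]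
  have e1 := euler_two E hF h1 (Sum.inr v) (Sum.inr w) k
  have e2 : (if k = 0 then (0 : RB n) else ∑ c, c1 X (Sum.inr v) c •
      sr E (cor F 0 [(c, k - 1), (Sum.inr w, 0)])) = 0 := by
    split_ifs
    · rfl
    · refine Finset.sum_eq_zero fun c _ => ?_
      have : c1 X (Sum.inr v) c = 0 := by
        unfold c1 hmul
        simp
      rw [this, zero_smul]
  have e3 : ∑ c, c1 X (Sum.inr v) c * pairing X c (Sum.inr w) = 0 := by
    refine Finset.sum_eq_zero fun c _ => ?_
    have : c1 X (Sum.inr v) c = 0 := by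
      unfold c1 hmul
      simp
    rw [this, zero_mul]
  have e4 : mu X (Sum.inr v) + mu X (Sum.inr w) = 0 := by
    have h := X.form_hodge v w hw
    have h' : ((X.hodgeP v : ℕ) : ℂ) + ((X.hodgeP w : ℕ) : ℂ) = X.dim := by exact_mod_cast h
    unfold mu hp
    simp only
    linear_combination h'
  rw [e2, e3, cb_zero, ite_self, add_zero, add_zero, sr_two_prim E h1, add_assoc, e4,
    add_zero] at e1
  simp only [e0] at e1
  have e5 : ∑ i, calE E h1 i * (X.form v w • ((SB E h1 k).2 v *
      sr E (fun d L => Classical.choose h1.mono2 0 0 d (hpow X i :: L)))) =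
      X.form v w • (CB E h1 (calE E h1) * SB E h1 k).2 v := by
    change _ = X.form v w • ((∑ i, calE E h1 i *
      sr E (fun d L => Classical.choose h1.mono2 0 0 d (hpow X i :: L))) * (SB E h1 k).2 v)
    rw [Finset.sum_mul, Finset.smul_sum]
    refine Finset.sum_congr rfl fun i _ => ?_
    rw [mul_smul_comm]
    congr 1
    ring
  rw [e5] at e1
  have e6 : X.form v w • (CB E h1 (calE E h1) * SB E h1 k).2 v =
      X.form v w • (cb n ((k : ℂ) + 1) * (SB E h1 (k + 1)).2 v) := by
    rw [e1, smul_comm, smul_RB ((k : ℂ) + 1)]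
  exact smul_right_injective _ hw e6

/-- **[DB4a]** grading and divisor equation -/
theorem SB_euler (hF : IsGW X F) (h1 : IsGenusOne F) (k : ℕ) :
    CB E h1 (calE E h1) * SB E h1 k =
    ((k : ℚ) + 1) • SB E h1 (k + 1) + SB E h1 (k + 1) * muB X n - muB X n * SB E h1 (k + 1) +
      SB E h1 k * RBcl X n := by
  refine Prod.ext ?_ ?_
  · refine Matrix.ext fun c b => ?_
    rw [euler_amb E hF h1, ← rat_smul_RB]
    have e1 : ((SB E h1 (k + 1)).1 * (muB X n).1) c b =
        (SB E h1 (k + 1)).1 c b * cb n (mu X (Sum.inl b)) := by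
      change ((SB E h1 (k + 1)).1 * Matrix.diagonal fun b => cb n (mu X (Sum.inl b))) c b = _
      rw [Matrix.mul_diagonal]
    have e2 : ((muB X n).1 * (SB E h1 (k + 1)).1) c b =
        cb n (mu X (Sum.inl c)) * (SB E h1 (k + 1)).1 c b := by
      change ((Matrix.diagonal fun b => cb n (mu X (Sum.inl b))) * (SB E h1 (k + 1)).1) c b = _
      rw [Matrix.diagonal_mul]
    rw [← e1, ← e2]
    rfl
  · funext v
    rw [euler_prim E hF h1, ← rat_smul_RB]
    change _ = ((k : ℚ) + 1) • (SB E h1 (k + 1)).2 v +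
      (SB E h1 (k + 1)).2 v * cb n (mu X (Sum.inr v)) -
      cb n (mu X (Sum.inr v)) * (SB E h1 (k + 1)).2 v + (SB E h1 k).2 v * 0
    ring

end Vale.Agent.P269.G1.H984
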