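import Vale.Agent.P269.G1I.ZAbs

/-!
# [ZA2]: the components `1` and `2` of `T^K δ_1`, the component `1` of `T^K δ_{-1}`
-/

set_option autoImplicit false

namespace Vale.Agent.P269.G1.H984

open Finset.HasAntidiagonal (antidiagonal)

section

variable (R : Type*) {O : Type*} [CommRing R] [Algebra ℚ R] [Ring O] [Algebra R O]

/-- `∑_{a+b=K, a>0} U^{a-1} g_b` -/
def Sg (U : O) (g : ℕ → O) (K : ℕ) : O :=
  ∑ e ∈ antidiagonal K, if e.1 = 0 then 0 else U ^ (e.1 - 1) * g e.2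

theorem Sg_zero (U : O) (g : ℕ → O) : Sg U g 0 = 0 := by
  simp [Sg]

theorem Sg_succ' (U : O) (g : ℕ → O) (K : ℕ) :
    Sg U g (K + 1) = ∑ e ∈ antidiagonal K, U ^ e.1 * g e.2 := by
  rw [Sg, Finset.Nat.sum_antidiagonal_succ]
  simp

theorem Sg_succ (U : O) (g : ℕ → O) (K : ℕ) : Sg U g (K + 1) = g K + U * Sg U g K := by
  rw [Sg_succ']
  cases K with
  | zero => simp [Sg_zero]
  | succ K =>
    rw [Sg_succ', Finset.Nat.sum_antidiagonal_succ, pow_zero, one_mul, Finset.mul_sum]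
    congr 1
    exact Finset.sum_congr rfl fun e _ => by rw [pow_succ', mul_assoc]

theorem DD_lt (U mu : O) (c : ℤ) (K : ℕ) : ∀ p : ℤ, p < c → DD R U mu c K p = 0 := by
  induction K with
  | zero =>
    intro p hp
    rw [DD, if_neg (by omega)]
  | succ K ih =>
    intro p hp
    rw [DD, ih (p - 1) (by omega), ih p hp, mul_zero, mul_zero, add_zero]

theorem DD_self (U mu : O) (c : ℤ) (K : ℕ) : DD R U mu c K c = U ^ K := by
  induction K with
  | zero => rw [DD, if_pos rfl, pow_zero]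
  | succ K ih => rw [DD, DD_lt R U mu c K (c - 1) (by omega), ih, mul_zero, zero_add, pow_succ']

theorem DD_next (U mu : O) (c : ℤ) (K : ℕ) :
    DD R U mu c K (c + 1) = Sg U (fun n => (kk R (((c + 1 : ℤ) : ℚ) - 1 / 2) + mu) * U ^ n) K := by
  induction K with
  | zero => rw [DD, if_neg (by omega), Sg_zero]
  | succ K ih => rw [DD, Sg_succ, ih, add_sub_cancel_right, DD_self]

theorem DD_next2 (U mu : O) (c : ℤ) (K : ℕ) :
    DD R U mu c K (c + 2) = Sg U (fun n => (kk R (((c + 2 : ℤ) : ℚ) - 1 / 2) + mu) *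
      Sg U (fun n => (kk R (((c + 1 : ℤ) : ℚ) - 1 / 2) + mu) * U ^ n) n) K := by
  induction K with
  | zero => rw [DD, if_neg (by omega), Sg_zero]
  | succ K ih =>
    rw [DD, Sg_succ, ih, show c + 2 - 1 = c + 1 by ring, DD_next]

/-- **[ZA2]** -/
theorem DD_one_one (U mu : O) (K : ℕ) : DD R U mu 1 K 1 = U ^ K := DD_self R U mu 1 K

/-- **[ZA2]** -/
theorem DD_one_two (U mu : O) (K : ℕ) : DD R U mu 1 K 2 =
    ∑ e ∈ antidiagonal K, if e.1 = 0 then 0 else
      U ^ (e.1 - 1) * (kk R (3 / 2) + mu) * U ^ e.2 := by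
  have h := DD_next R U mu 1 K
  have e1 : (((1 + 1 : ℤ) : ℚ) - 1 / 2) = 3 / 2 := by norm_num
  rw [e1] at h
  have e2 : (1 + 1 : ℤ) = 2 := by norm_num
  rw [e2] at h
  rw [h, Sg]
  refine Finset.sum_congr rfl fun e _ => ?_
  split_ifs
  · rfl
  · rw [mul_assoc]

/-- **[ZA2]** -/
theorem DD_neg_one (U mu : O) (K : ℕ) : DD R U mu (-1) K 1 =
    ∑ e ∈ antidiagonal K, if e.1 = 0 then 0 else
      ∑ f ∈ antidiagonal e.2, if f.1 = 0 then 0 else
        U ^ (e.1 - 1) * (kk R (1 / 2) + mu) * U ^ (f.1 - 1) *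
          (kk R (-1 / 2) + mu) * U ^ f.2 := by
  have h := DD_next2 R U mu (-1) K
  have e1 : (((-1 + 2 : ℤ) : ℚ) - 1 / 2) = 1 / 2 := by norm_num
  have e3 : (((-1 + 1 : ℤ) : ℚ) - 1 / 2) = -1 / 2 := by norm_num
  rw [e1, e3] at h
  have e2 : (-1 + 2 : ℤ) = 1 := by norm_num
  rw [e2] at h
  rw [h, Sg]
  refine Finset.sum_congr rfl fun e _ => ?_
  split_ifs
  · rfl
  · rw [Sg, Finset.mul_sum, Finset.mul_sum]
    refine Finset.sum_congr rfl fun f _ => ?_
    split_ifs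
    · rw [mul_zero, mul_zero]
    · simp only [mul_assoc]

end

end Vale.Agent.P269.G1.H984
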